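import Vale.Agent.P011UGA.IF3
import Vale.Agent.P011UC.Rat
import Vale.Agent.P011UGC5.Act

/-!
The differential of the action on a normalised form.
-/

set_option autoImplicit false
set_option linter.all false

namespace Vale.Agent.P011UGD1

open Matrix Finset Vale.Agent.P011L Vale.Agent.P183CH Vale.Agent.P183CH.Chev Vale.Agent.P011U
  Vale.Agent.P011UGA Vale.Agent.P011UP Vale.Agent.P011UC Vale.Agent.P011LD Vale.Agent.P011UGC5

variable {k K : Type} [Field k] [Field K] [Algebra k K] {D : Chev} {γ γ' : D.Q}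

theorem adM_apply {n : ℕ} (X Y : Matrix (Fin n) (Fin n) K) : adM X Y = X * Y - Y * X := rfl

theorem ad_gen (h : γ ∈ D.R.Φ) (M : D.Mat K) : ∃ v : ℕ → D.Mat K, v 1 = adM (ee D K γ) M ∧
    ∀ t, Ad ((GG D K).x γ t).1 M = ∑ m ∈ range (D.n + D.n + 2), t ^ m • v m := by
  induction M using Matrix.induction_on' with
  | h_zero => exact ⟨0, by simp, fun t => by simp⟩
  | h_add p q hp hq =>
    obtain ⟨v, h1, h2⟩ := hp
    obtain ⟨w, h3, h4⟩ := hq
    exact ⟨v + w, by rw [map_add, ← h1, ← h3]; rfl, fun t => by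
      rw [map_add, h2, h4, ← sum_add_distrib]
      exact sum_congr rfl fun m _ => (smul_add _ _ _).symm⟩
  | h_std_basis i j x =>
    have e : single i j x = x • ct K (single i j (1 : ℤ)) := by
      ext a b
      by_cases e : i = a ∧ j = b <;> simp [single_apply, e]
    refine ⟨fun m => x • ct K (adp (D.EE γ) (single i j 1) m), ?_, fun t => ?_⟩
    · beta_reduce
      rw [e, map_smul, adp_one (mem_Φ.1 h).rh.dp, Ring.lie_def, map_sub, map_mul, map_mul]
      rfl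
    · rw [e, map_smul, ad_sum h, smul_sum]
      exact sum_congr rfl fun m _ => smul_comm _ _ _

theorem ad_TV (g : D.grp K) {M : D.Mat K} (hM : M ∈ TV D K) : Ad g.1 M ∈ TV D K :=
  (Sm.lin (Ad g.1)).ind _ (fun _ hx => hx.elim fun _ hx => Submodule.subset_span ⟨_, hx.conj g⟩) hM

theorem adM_TV [Infinite K] (h : γ ∈ D.R.Φ) {M : D.Mat K} (hM : M ∈ TV D K) :
    adM (ee D K γ) M ∈ TV D K := by
  obtain ⟨v, h1, h2⟩ := ad_gen (K := K) h M
  exact h1 ▸ coef_mem _ _ v (fun t => h2 t ▸ ad_TV _ hM) (m := 1) (by omega)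

theorem ee_mem (h : γ ∈ D.R.Φ) : ee D K γ ∈ TV D K := Submodule.subset_span ⟨_, tan_x' h⟩

theorem hm_br (i : Fin D.r) :
    adM (ee D K (D.R.α i)) (ee D K (-D.R.α i)) = ct K (D.hm i) := by
  rw [← hm_eq i, adp_one (mem_Φ.1 ((R_ok D).simple i)).rh.dp, Ring.lie_def, map_sub, map_mul,
    map_mul]
  rfl

theorem dif_br [Infinite K] {σ : K ≃ₐ[k] K} {ψ : MulAut (D.grp K)} {A : D.Mat K → D.Mat K}
    (h : Sm σ A) (h' : ∀ x M, Tan x M → Tan (fun t => ψ (x (σ⁻¹ t))) (A M)) {d : K}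
    (a : γ ∈ D.R.Φ) (a' : γ' ∈ D.R.Φ)
    (e : ∀ u, ψ ((GG D K).x γ u) = (GG D K).x γ' (d * σ u)) :
    A (ee D K γ) = d • ee D K γ' ∧
      ∀ N ∈ TV D K, A (adM (ee D K γ) N) = adM (A (ee D K γ)) (A N) := by
  have e1 : A (ee D K γ) = d • ee D K γ' := by
    simpa [Ad_apply] using dif_ee (g := 1) h' a a' (d := d) (by simpa using e)
  refine ⟨e1, fun N hN => ?_⟩
  obtain ⟨v, h1, h2⟩ := ad_gen (K := K) a N
  obtain ⟨w, h3, h4⟩ := ad_gen (K := K) a' (A N)
  have := coef_eq (F := K) (D.n + D.n + 2) (fun m => A (v m)) (fun m => d ^ m • w m)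
    (fun t => ?_) (m := 1) (by omega)
  · rw [← h1, this, h3, e1, pow_one, adM_apply, adM_apply, smul_sub, smul_mul_assoc, mul_smul_comm]
  have h5 := dif_ad h h' ((GG D K).x γ (σ⁻¹ t)) hN
  rw [h2, e, h4, h.sum] at h5
  simp only [h.smul, map_pow, show σ (σ⁻¹ t) = t from σ.apply_symm_apply t] at h5
  rw [h5]
  exact sum_congr rfl fun m _ => by rw [smul_smul, mul_pow, mul_comm]

variable {T : Tw k (D.grp K)} {ε : (K ≃ₐ[k] K) →* ℤˣ}
  {π : (K ≃ₐ[k] K) →* Equiv.Perm (Fin D.R.r)} {d : Fin D.R.r → Kˣ}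

/-- The action on the root subgroups. -/
theorem a_x (o : Opw T ε π d) (σ : K ≃ₐ[k] K) : ∀ γ ∈ D.R.Φ, (ε σ : ℤ) • pm (π σ) γ ∈ D.R.Φ ∧
    ∃ c : K, ∀ u, T.a σ ((GG D K).x γ u) = (GG D K).x ((ε σ : ℤ) • pm (π σ) γ) (c * σ u) := by
  have r := R_ok D
  rcases Int.units_eq_one_or (ε σ) with e | e
  · intro γ h
    obtain ⟨c, hc⟩ := std_x GG_ok (std_pos o e) r γ h
    simp only [e, Units.val_one, one_smul]
    exact ⟨pm_mem r (o.dg σ) γ h, c, fun u => by simpa using (hc u).1⟩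
  simp only [e, Units.val_neg, Units.val_one, neg_smul, one_smul]
  refine fun γ h => ⟨r.neg_mem (pm_mem r (o.dg σ) γ h), rt_ind r (P := fun γ => ∃ c : K, ∀ u,
    T.a σ ((GG D K).x γ u) = (GG D K).x (-pm (π σ) γ) (c * σ u)) (fun i => ⟨_, fun u =>
      pm_α (π := π σ) i ▸ (o.neg σ i u e).1⟩) (fun i γ hγ ⟨c, hc⟩ => ?_) γ h⟩
  obtain ⟨b, hb⟩ := sl_neg (Γ := GG D K) GG_ok r (π σ i)
  have h1 : T.a σ ((GG D K).n i) = (GG D K).h (π σ i) (b * (d (π σ i))⁻¹) * (GG D K).n (π σ i) := by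
    have := (GG_ok (D := D) (k := K)).sl i 1
    rw [map_one, one_mul] at this
    rw [← this, ← hb, map_mul, map_mul, (o.neg σ i _ e).1, (o.neg σ i _ e).2]
    simp
  obtain ⟨a, h2⟩ := (GG_ok (D := D) (k := K)).rep_conj r (RG.rep_n i) hγ
  obtain ⟨a', h3⟩ := (GG_ok (D := D) (k := K)).rep_conj r
    ((RG.rep_n (π σ i)).T_mul (RG.h_mem (π σ i) (b * (d (π σ i))⁻¹))) (pm_mem r (o.dg σ) γ hγ)
  rw [r.sE_apply] at h2 h3
  refine ⟨(a'⁻¹ : Kˣ) * c * σ (a⁻¹ : Kˣ), fun u => ?_⟩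
  rw [pm_s (o.dg σ), show (GG D K).x (D.R.s i γ) u = (GG D K).x (D.R.s i γ) (a * ((a⁻¹ : Kˣ) * u))
    by simp, ← (h2 _).1, map_mul, map_mul, map_inv, hc, h1, (h3 _).2]
  simp only [map_mul, mul_assoc]

theorem dif : DIF := by
  intro k K _ _ _ _ _ D _ T ε π d o _
  haveI := Infinite.of_injective _ (algebraMap k K).injective
  have r := R_ok D
  choose A h1 h2 using fun σ => exists_dif (σ := σ) (ψ := T.a σ) (T.pol σ)
  have h3 := fun σ γ (h : γ ∈ D.R.Φ) => (a_x o σ γ h).2.imp fun c hc =>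
    dif_br (h1 σ) (h2 σ) h (a_x o σ γ h).1 hc
  have sub : ∀ σ M N, A σ (M - N) = A σ M - A σ N := fun σ =>
    map_sub (AddMonoidHom.mk' _ (h1 σ).add)
  have hh : ∀ σ i, A σ (ct K (D.hm i)) =
      adM (A σ (ee D K (D.R.α i))) (A σ (ee D K (-D.R.α i))) := fun σ i => by
    obtain ⟨c, -, hc⟩ := h3 σ _ (r.simple i)
    rw [← hm_br, hc _ (ee_mem (r.neg_mem (r.simple i)))]
  have mem : ∀ J : Set (Fin D.R.r), (∀ σ, ∀ i ∈ J, π σ i ∈ J) → ∀ σ, ∀ M ∈ lie D K J,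
      A σ M ∈ lie D K J := fun J hJ σ M m => by
    refine (h1 σ).ind _ ?_ m
    rintro _ (⟨γ, h, j, rfl⟩ | ⟨i, rfl⟩)
    · obtain ⟨c, hc, -⟩ := h3 σ γ h
      have j' : D.R.In J (pm (π σ) γ) :=
        pm_In (fun i => ⟨fun e => by simpa using hJ σ⁻¹ _ e, hJ σ i⟩) j
      exact hc ▸ Submodule.smul_mem _ _ (lie_e (mem_Φ.1 (a_x o σ γ h).1) fun i hi => by
        simp [j' i hi])
    · obtain ⟨c, hc, -⟩ := h3 σ _ (r.simple i)
      obtain ⟨c', hc', -⟩ := h3 σ _ (r.neg_mem (r.simple i))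
      have e := hm_br (K := K) (D := D) (π σ i)
      rw [hh, hc, hc', pm_neg, pm_α, adM_apply, smul_mul_smul_comm, smul_mul_smul_comm,
        mul_comm c', ← smul_sub]
      refine Submodule.smul_mem _ _ ?_
      rcases Int.units_eq_one_or (ε σ) with e' | e'
      · simp only [e', Units.val_one, one_smul]
        exact (congrArg (· ∈ lie D K J) e).mpr (lie_h _)
      · simp only [e', Units.val_neg, Units.val_one, neg_smul, one_smul, neg_neg]
        rw [← neg_sub]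
        exact neg_mem ((congrArg (· ∈ lie D K J) e).mpr (lie_h _))
  have mu := mem Set.univ fun _ _ _ => trivial
  have mul : ∀ σ τ, ∀ M ∈ TV D K, A (σ * τ) M = A σ (A τ M) := fun σ τ M m =>
    (h1 (σ * τ)).ext ((h1 σ).comp (h1 τ)) (fun M ⟨x, hx⟩ => (h2 (σ * τ) _ _ hx).uniq (by
      simpa only [map_mul, _root_.mul_inv_rev, AlgEquiv.mul_apply, MulAut.mul_apply] using
        h2 σ _ _ (h2 τ _ _ hx))) (s := {M | ∃ x, Tan x M}) m
  let B : (K ≃ₐ[k] K) → lg D K → lg D K := fun σ M => ⟨A σ M, mu σ _ M.2⟩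
  have sl : Sl ⊤ B := ⟨fun σ _ v w => Subtype.ext ((h1 σ).add _ _), fun σ _ c v =>
    Subtype.ext ((h1 σ).smul _ _), fun σ _ τ _ v => Subtype.ext (mul σ τ _ (lie_TV v.2)),
      fun ⟨M, m⟩ => ?_⟩
  rotate_left
  · suffices Op ⊤ fun σ => A σ M = M from this.imp fun σ s e => Subtype.ext e
    induction m using Submodule.span_induction with
    | mem M m =>
      refine (near_op (near_fE T) ⊤).imp fun σ s e => ?_
      have e : ∀ γ ∈ D.R.Φ, A σ (ee D K γ) = ee D K γ := fun γ h => by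
        simpa using (dif_br (h1 σ) (h2 σ) (d := 1) h h fun u => by rw [e, fE_x, one_mul]).1
      obtain ⟨γ, h, -, rfl⟩ | ⟨i, rfl⟩ := m
      · exact e γ h
      · rw [hh, e _ (r.simple i), e _ (r.neg_mem (r.simple i)), hm_br]
    | zero => exact ⟨∅, fun σ s _ => (AddMonoidHom.mk' _ (h1 σ).add).map_zero⟩
    | add v w _ _ e e' => exact (e.and e').imp fun σ s e => by rw [(h1 σ).add, e.1, e.2]
    | smul c v _ e =>
      exact (e.and (Op.fix ⊤ c)).imp fun σ s e => by rw [(h1 σ).smul, e.1, e.2]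
  refine ⟨A, ⟨fun σ => (h1 σ).add, fun σ => (h1 σ).smul, mu, fun σ M m => ?_,
    fun σ g M m => dif_ad (h1 σ) (h2 σ) g (lie_TV m), fun σ M m N n => ?_, fun W hW st v hv => ?_⟩,
      mem⟩
  · rw [← mul σ _ M (lie_TV m), mul_inv_cancel]
    exact congrArg Subtype.val (sl.one ⟨M, m⟩)
  · have n := lie_TV n
    refine Sm.ext (σ := σ) (f := fun M => A σ (adM M N)) (g := fun M => adM (A σ M) (A σ N))
      ⟨fun v w => ?_, fun c v => ?_⟩ ⟨fun v w => ?_, fun c v => ?_⟩ ?_ m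
    · rw [← (h1 σ).add]
      congr 1
      simp only [adM_apply, add_mul, mul_add]
      abel
    · rw [← (h1 σ).smul, adM_apply, adM_apply, smul_sub, smul_mul_assoc, mul_smul_comm]
    · simp only [(h1 σ).add, adM_apply, add_mul, mul_add]
      abel
    · rw [(h1 σ).smul, adM_apply, adM_apply, smul_sub, smul_mul_assoc, mul_smul_comm]
    rintro _ (⟨γ, h, -, rfl⟩ | ⟨i, rfl⟩)
    · obtain ⟨c, -, hc⟩ := h3 σ γ h
      exact hc N n
    · have a := r.simple i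
      have a' := r.neg_mem a
      obtain ⟨c, -, hc⟩ := h3 σ _ a
      obtain ⟨c', -, hc'⟩ := h3 σ _ a'
      have jc : ∀ X Y Z : D.Mat K, adM (adM X Y) Z = adM X (adM Y Z) - adM Y (adM X Z) :=
        fun X Y Z => by
          simp only [adM_apply, mul_sub, sub_mul, mul_assoc]
          abel
      show A σ (adM (ct K (D.hm i)) N) = adM (A σ (ct K (D.hm i))) (A σ N)
      rw [hh, ← hm_br, jc, jc, sub, hc _ (adM_TV a' n), hc' _ (adM_TV a n), hc N n, hc' N n]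
  · have := sl.mem_span (W.comap (lg D K).subtype) (fun σ _ w hw => st σ _ hw)
      (v := ⟨v, hW hv⟩) hv
    refine Submodule.span_mono ?_ ((Submodule.map_span _ _).le
      (Submodule.mem_map_of_mem (f := (lg D K).subtype) this))
    rintro _ ⟨w, hw, rfl⟩
    exact ⟨hw.2, fun σ => congrArg Subtype.val (hw.1 σ trivial)⟩

end Vale.Agent.P011UGD1
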